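import Vale.Agent.P361S42.Main

namespace Vale.Agent.Results.P361.AAllSpinMatrices

open Filter Topology Vale.Agent.P361S42
open Vale.Agent.P361.Model (box)

/-- Every spin `S = n / 2`, `n = 1, 2, 3, …`. The spin matrices, given only by the commutation
relations and the value of the Casimir operator, exist, are irreducible and are unique up to a
change of basis; Bloch's law holds for the model built from any of them. -/
theorem result (n : ℕ) (hn : 1 ≤ n) :
    (∃ S : Fin 3 → Matrix (Fin (n + 1)) (Fin (n + 1)) ℂ,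
      IsSpin (n / 2) S ∧ ∀ a, (S a).IsHermitian) ∧
    ∀ S : Fin 3 → Matrix (Fin (n + 1)) (Fin (n + 1)) ℂ, IsSpin (n / 2) S → Irred S ∧
      (∀ T : Fin 3 → Matrix (Fin (n + 1)) (Fin (n + 1)) ℂ, IsSpin (n / 2) T →
        ∃ U, IsUnit U ∧ ∀ a, S a * U = U * T a) ∧
      (∀ N β h, (partFn S N β h).im = 0 ∧ 0 < (partFn S N β h).re) ∧
      ∃ (p : ℝ → ℝ → ℝ) (m : ℝ → ℝ),
        (∀ β : ℝ, 0 < β →
          (∀ h : ℝ, Tendsto (fun N : ℕ => 1 / (β * (box N).card) * Real.log (partFn S N β h).re)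
            atTop (𝓝 (p β h))) ∧
          ConvexOn ℝ Set.univ (p β) ∧ HasDerivWithinAt (p β) (m β) (Set.Ioi 0) 0 ∧
          m β ∈ Set.Icc (0 : ℝ) (n / 2)) ∧
        (∀ᶠ β in atTop, 0 < m β) ∧
        Tendsto (fun β : ℝ => β ^ (3 / 2 : ℝ) * ((n : ℝ) / 2 - m β)) atTop
          (𝓝 ((riemannZeta (3 / 2)).re /
            (8 * Real.pi ^ (3 / 2 : ℝ) * ((n : ℝ) / 2) ^ (3 / 2 : ℝ)))) :=
  main n hn

end Vale.Agent.Results.P361.AAllSpinMatrices
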